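import Vale.Agent.P153.FKG.Ratio
import Vale.Agent.P153.FKG.Sand
import Vale.Agent.P153.FKG.RatioS

/-! P153, module FKG: everything. -/

open Set

noncomputable section
namespace Vale.Agent.P153



end Vale.Agent.P153
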