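import Vale.Agent.P153.Core

/-! P153, module FKG: algebra of uniform averages. -/

open Set

noncomputable section
namespace Vale.Agent.P153

variable {S T E E' : Set Cfg} {f g : Cfg → ℝ} {c : ℝ}

theorem Ex_eq (hS : S.Finite) (f : Cfg → ℝ) :
    Ex S f = (∑ H ∈ hS.toFinset, f H) / (S.ncard : ℝ) := by
  rw [Ex, avg, finsum_mem_eq_finite_toFinset_sum f hS]

theorem Good.card_pos (h : Good S) : (0 : ℝ) < S.ncard := by
  exact_mod_cast (ncard_pos h.1).2 h.2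

theorem Good.sum_eq (h : Good S) (f : Cfg → ℝ) :
    ∑ H ∈ h.1.toFinset, f H = S.ncard * Ex S f := by
  rw [Ex_eq h.1, mul_div_cancel₀ _ h.card_pos.ne']

theorem Good.sub (h : S.Finite) (h1 : T ⊆ S) (h2 : T.Nonempty) : Good T := ⟨h.subset h1, h2⟩

theorem Ex_inf (hS : ¬ S.Finite) (f : Cfg → ℝ) : Ex S f = 0 := by
  rw [Ex, avg, Infinite.ncard hS]; simp

theorem Ex_empty (f : Cfg → ℝ) : Ex ∅ f = 0 := by simp [Ex, avg]

theorem Ex_congr (h : ∀ H ∈ S, f H = g H) : Ex S f = Ex S g := by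
  rw [Ex, Ex, avg, avg, finsum_mem_congr rfl h]

theorem Ex_mono (h : ∀ H ∈ S, f H ≤ g H) : Ex S f ≤ Ex S g := by
  by_cases hS : S.Finite
  · rw [Ex_eq hS, Ex_eq hS]
    exact div_le_div_of_nonneg_right
      (Finset.sum_le_sum fun H hH => h H (hS.mem_toFinset.1 hH)) (Nat.cast_nonneg _)
  · rw [Ex_inf hS, Ex_inf hS]

theorem Ex_add (S : Set Cfg) (f g : Cfg → ℝ) : Ex S (fun H => f H + g H) = Ex S f + Ex S g := by
  by_cases hS : S.Finite
  · simp only [Ex_eq hS, Finset.sum_add_distrib, add_div]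
  · simp [Ex_inf hS]

theorem Ex_mul_left (S : Set Cfg) (c : ℝ) (f : Cfg → ℝ) :
    Ex S (fun H => c * f H) = c * Ex S f := by
  by_cases hS : S.Finite
  · simp only [Ex_eq hS, ← Finset.mul_sum, mul_div_assoc]
  · simp [Ex_inf hS]

theorem Ex_mul_right (S : Set Cfg) (c : ℝ) (f : Cfg → ℝ) :
    Ex S (fun H => f H * c) = Ex S f * c := by
  simp only [mul_comm _ c, Ex_mul_left]

theorem Ex_div (S : Set Cfg) (c : ℝ) (f : Cfg → ℝ) : Ex S (fun H => f H / c) = Ex S f / c := by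
  simp only [div_eq_mul_inv, Ex_mul_right]

theorem Ex_neg (S : Set Cfg) (f : Cfg → ℝ) : Ex S (fun H => -f H) = -Ex S f := by
  simpa using Ex_mul_left S (-1) f

theorem Ex_sub (S : Set Cfg) (f g : Cfg → ℝ) : Ex S (fun H => f H - g H) = Ex S f - Ex S g := by
  simp only [sub_eq_add_neg, Ex_add, Ex_neg]

theorem Ex_zero (S : Set Cfg) : Ex S (fun _ => 0) = 0 := by
  simpa using Ex_mul_left S 0 (fun _ => 0)

theorem Ex_sum {ι : Type} (S : Set Cfg) (s : Finset ι) (F : ι → Cfg → ℝ) :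
    Ex S (fun H => ∑ i ∈ s, F i H) = ∑ i ∈ s, Ex S (F i) := by
  classical
  induction s using Finset.induction_on with
  | empty => simpa using Ex_zero S
  | insert a s ha ih => simp only [Finset.sum_insert ha, Ex_add, ih]

theorem Ex_const (h : Good S) (c : ℝ) : Ex S (fun _ => c) = c := by
  rw [Ex_eq h.1, Finset.sum_const, nsmul_eq_mul, ← ncard_eq_toFinset_card S h.1,
    mul_div_cancel_left₀ _ h.card_pos.ne']

theorem Ex_nonneg (h : ∀ H ∈ S, 0 ≤ f H) : 0 ≤ Ex S f := (Ex_zero S).ge.trans (Ex_mono h)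

theorem Ex_le (hS : Good S) (h : ∀ H ∈ S, f H ≤ c) : Ex S f ≤ c :=
  (Ex_mono h).trans (Ex_const hS c).le

theorem le_Ex (hS : Good S) (h : ∀ H ∈ S, c ≤ f H) : c ≤ Ex S f :=
  (Ex_const hS c).ge.trans (Ex_mono h)

theorem Ex_le' (hc : 0 ≤ c) (h : ∀ H ∈ S, f H ≤ c) : Ex S f ≤ c := by
  by_cases hS : S.Finite
  · rcases S.eq_empty_or_nonempty with rfl | h2
    · rwa [Ex_empty]
    · exact Ex_le ⟨hS, h2⟩ h
  · rwa [Ex_inf hS]

theorem abs_Ex_le (S : Set Cfg) (f : Cfg → ℝ) : |Ex S f| ≤ Ex S fun H => |f H| := by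
  refine abs_le.2 ⟨?_, Ex_mono fun H _ => le_abs_self _⟩
  rw [← Ex_neg]
  exact Ex_mono fun H _ => neg_abs_le _

theorem abs_Ex_le_of (hc : 0 ≤ c) (h : ∀ H ∈ S, |f H| ≤ c) : |Ex S f| ≤ c :=
  (abs_Ex_le S f).trans (Ex_le' hc h)

/-- Cauchy-Schwarz. -/
theorem Ex_mul_sq_le (S : Set Cfg) (f g : Cfg → ℝ) :
    Ex S (fun H => f H * g H) ^ 2 ≤ Ex S (fun H => f H ^ 2) * Ex S fun H => g H ^ 2 := by
  by_cases hS : S.Finite
  · simp only [Ex_eq hS, div_pow, div_mul_div_comm, ← sq]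
    exact div_le_div_of_nonneg_right (Finset.sum_mul_sq_le_sq_mul_sq _ _ _) (sq_nonneg _)
  · simp [Ex_inf hS]

theorem abs_Ex_mul_le (S : Set Cfg) (f g : Cfg → ℝ) :
    |Ex S fun H => f H * g H| ≤ √(Ex S fun H => f H ^ 2) * √(Ex S fun H => g H ^ 2) := by
  rw [← Real.sqrt_mul (Ex_nonneg fun H _ => sq_nonneg _)]
  exact Real.abs_le_sqrt (Ex_mul_sq_le S f g)

theorem Ex_sq_le (S : Set Cfg) (f : Cfg → ℝ) : Ex S f ^ 2 ≤ Ex S fun H => f H ^ 2 := by
  have h := Ex_mul_sq_le S f fun _ => 1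
  simp only [mul_one, one_pow] at h
  exact h.trans (mul_le_of_le_one_right (Ex_nonneg fun H _ => sq_nonneg _)
    (Ex_le' zero_le_one fun _ _ => le_rfl))

theorem Ex_pos (hS : S.Finite) (h : ∀ H ∈ S, 0 ≤ f H) {H₀ : Cfg} (h0 : H₀ ∈ S) (h1 : 0 < f H₀) :
    0 < Ex S f := by
  rw [Ex_eq hS]
  exact div_pos (Finset.sum_pos' (fun H hH => h H (hS.mem_toFinset.1 hH))
    ⟨H₀, hS.mem_toFinset.2 h0, h1⟩) (Good.card_pos ⟨hS, H₀, h0⟩)

/-- Transport along a bijection. -/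
theorem Ex_bij {φ : Cfg → Cfg} (h : BijOn φ S T) (f : Cfg → ℝ) :
    Ex S (fun H => f (φ H)) = Ex T f := by
  rw [Ex, Ex, avg, avg, finsum_mem_eq_of_bijOn φ h fun _ _ => rfl, ← h.image_eq,
    h.injOn.ncard_image]

theorem Good.bij {φ : Cfg → Cfg} (h : BijOn φ S T) (hS : Good S) : Good T :=
  h.image_eq ▸ ⟨hS.1.image φ, hS.2.image φ⟩

/-! ### Probabilities -/

theorem ind_nonneg (E : Set Cfg) (H : Cfg) : (0 : ℝ) ≤ E.indicator 1 H :=
  indicator_nonneg (fun _ _ => zero_le_one) H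

theorem ind_le_one (E : Set Cfg) (H : Cfg) : E.indicator (1 : Cfg → ℝ) H ≤ 1 :=
  indicator_le_self' (fun _ _ => zero_le_one) H

theorem ind_mono {H H' : Cfg} (h : H ∈ E → H' ∈ E') :
    E.indicator (1 : Cfg → ℝ) H ≤ E'.indicator 1 H' := by
  by_cases h1 : H ∈ E
  · simp [h1, h h1]
  · simpa [h1] using ind_nonneg E' H'

theorem ind_inter (E E' : Set Cfg) (H : Cfg) :
    (E ∩ E').indicator (1 : Cfg → ℝ) H = E.indicator 1 H * E'.indicator 1 H := by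
  by_cases h : H ∈ E <;> by_cases h' : H ∈ E' <;> simp [h, h']

theorem ind_compl (E : Set Cfg) (H : Cfg) :
    Eᶜ.indicator (1 : Cfg → ℝ) H = 1 - E.indicator 1 H := by
  by_cases h : H ∈ E <;> simp [h]

theorem Pr_nonneg (S E : Set Cfg) : 0 ≤ Pr S E := Ex_nonneg fun H _ => ind_nonneg E H

theorem Pr_le_one (S E : Set Cfg) : Pr S E ≤ 1 := Ex_le' zero_le_one fun H _ => ind_le_one E H

theorem Pr_mono (h : ∀ H ∈ S, H ∈ E → H ∈ E') : Pr S E ≤ Pr S E' :=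
  Ex_mono fun H hH => ind_mono (h H hH)

theorem Pr_congr (h : ∀ H ∈ S, H ∈ E ↔ H ∈ E') : Pr S E = Pr S E' :=
  le_antisymm (Pr_mono fun H hH => (h H hH).1) (Pr_mono fun H hH => (h H hH).2)

theorem Pr_empty (S : Set Cfg) : Pr S ∅ = 0 := by
  rw [Pr, indicator_empty]; exact Ex_zero S

theorem Pr_eq_zero (h : ∀ H ∈ S, H ∉ E) : Pr S E = 0 :=
  (Pr_congr fun H hH => iff_of_false (h H hH) (notMem_empty H)).trans (Pr_empty S)

theorem Pr_eq_one (hS : Good S) (h : ∀ H ∈ S, H ∈ E) : Pr S E = 1 :=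
  (Ex_congr fun H hH => by simp [h H hH]).trans (Ex_const hS 1)

theorem Pr_univ (hS : Good S) : Pr S univ = 1 := Pr_eq_one hS fun _ _ => trivial

theorem Pr_compl (hS : Good S) (E : Set Cfg) : Pr S Eᶜ = 1 - Pr S E := by
  rw [Pr, Ex_congr fun H _ => ind_compl E H, Ex_sub, Ex_const hS]; rfl

theorem Pr_inter_add_diff (S E E' : Set Cfg) : Pr S (E ∩ E') + Pr S (E \ E') = Pr S E := by
  rw [Pr, Pr, ← Ex_add]
  exact Ex_congr fun H _ => by by_cases h : H ∈ E <;> by_cases h' : H ∈ E' <;> simp [h, h']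

theorem Pr_union_add_inter (S E E' : Set Cfg) :
    Pr S (E ∪ E') + Pr S (E ∩ E') = Pr S E + Pr S E' := by
  rw [Pr, Pr, Pr, Pr, ← Ex_add, ← Ex_add]
  exact Ex_congr fun H _ => by by_cases h : H ∈ E <;> by_cases h' : H ∈ E' <;> simp [h, h']

theorem Pr_union_le (S E E' : Set Cfg) : Pr S (E ∪ E') ≤ Pr S E + Pr S E' := by
  linarith [Pr_union_add_inter S E E', Pr_nonneg S (E ∩ E')]

theorem Pr_union_of_disj (h : ∀ H ∈ S, H ∈ E → H ∉ E') : Pr S (E ∪ E') = Pr S E + Pr S E' := by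
  have := Pr_union_add_inter S E E'
  rwa [Pr_eq_zero (E := E ∩ E') fun H hH h' => h H hH h'.1 h'.2, add_zero] at this

theorem Pr_biUnion_le {ι : Type} (S : Set Cfg) (s : Finset ι) (F : ι → Set Cfg) :
    Pr S (⋃ i ∈ s, F i) ≤ ∑ i ∈ s, Pr S (F i) := by
  classical
  induction s using Finset.induction_on with
  | empty => simp [Pr_empty]
  | insert a s ha ih =>
    rw [Finset.set_biUnion_insert, Finset.sum_insert ha]
    exact (Pr_union_le _ _ _).trans (by linarith)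

theorem Pr_inter_ge (S E E' : Set Cfg) : Pr S E + Pr S E' - 1 ≤ Pr S (E ∩ E') := by
  linarith [Pr_union_add_inter S E E', Pr_le_one S (E ∪ E')]

theorem Pr_pos (hS : S.Finite) {H₀ : Cfg} (h0 : H₀ ∈ S) (h1 : H₀ ∈ E) : 0 < Pr S E :=
  Ex_pos hS (fun H _ => ind_nonneg E H) h0 (by simp [h1])

theorem nonempty_of_Pr_pos (h : 0 < Pr S E) : (S ∩ E).Nonempty := by
  by_contra hn
  exact h.ne' (Pr_eq_zero fun H h1 h2 => hn ⟨H, h1, h2⟩)

theorem sum_ind (hS : S.Finite) (E : Set Cfg) (f : Cfg → ℝ) :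
    ∑ H ∈ hS.toFinset, E.indicator f H = ∑ H ∈ (hS.inter_of_left E).toFinset, f H := by
  classical
  rw [← Finset.sum_indicator_subset f (s := (hS.inter_of_left E).toFinset) (t := hS.toFinset)
    (by simp)]
  refine Finset.sum_congr rfl fun H hH => ?_
  have := hS.mem_toFinset.1 hH
  by_cases h : H ∈ E <;> simp [h, this]

theorem Pr_eq (hS : S.Finite) (E : Set Cfg) : Pr S E = ((S ∩ E).ncard : ℝ) / S.ncard := by
  rw [Pr, Ex_eq hS, sum_ind, ncard_eq_toFinset_card _ (hS.inter_of_left E)]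
  simp

/-- Conditioning on an event. -/
theorem Ex_cond (S E : Set Cfg) (f : Cfg → ℝ) :
    Ex S (E.indicator f) = Pr S E * Ex (S ∩ E) f := by
  by_cases hS : S.Finite
  · rcases (S ∩ E).eq_empty_or_nonempty with h | h
    · rw [h, Ex_empty, mul_zero, Ex_eq hS, sum_ind]
      simp [h]
    · have g : Good (S ∩ E) := ⟨hS.inter_of_left E, h⟩
      rw [Ex_eq hS, sum_ind, Pr_eq hS, g.sum_eq]
      ring
  · simp [Pr, Ex_inf hS]

theorem Ex_cond' (S E : Set Cfg) (f : Cfg → ℝ) :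
    Ex S (fun H => E.indicator 1 H * f H) = Pr S E * Ex (S ∩ E) f := by
  rw [← Ex_cond]
  exact Ex_congr fun H _ => by by_cases h : H ∈ E <;> simp [h]

theorem Pr_cond (S E E' : Set Cfg) : Pr S (E ∩ E') = Pr S E * Pr (S ∩ E) E' := by
  rw [Pr, Ex_congr fun H _ => ind_inter E E' H, Ex_cond']; rfl

theorem Ex_split (S E : Set Cfg) (f : Cfg → ℝ) :
    Ex S f = Pr S E * Ex (S ∩ E) f + Pr S Eᶜ * Ex (S ∩ Eᶜ) f := by
  rw [← Ex_cond, ← Ex_cond, ← Ex_add]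
  exact Ex_congr fun H _ => by by_cases h : H ∈ E <;> simp [h]

/-- Markov inequality. -/
theorem markov (h : ∀ H ∈ S, 0 ≤ f H) (hE : ∀ H ∈ S, H ∈ E → c ≤ f H) : c * Pr S E ≤ Ex S f := by
  rw [Pr, ← Ex_mul_left]
  exact Ex_mono fun H hH => by
    by_cases h1 : H ∈ E
    · simpa [h1] using hE H hH h1
    · simpa [h1] using h H hH

theorem abs_Ex_ind_le (S E : Set Cfg) (f : Cfg → ℝ) :
    |Ex S fun H => E.indicator 1 H * f H| ≤ √(Pr S E) * √(Ex S fun H => f H ^ 2) := by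
  refine (abs_Ex_mul_le S _ f).trans (le_of_eq ?_)
  congr 2
  exact Ex_congr fun H _ => by by_cases h : H ∈ E <;> simp [h]

theorem Pr_bij {φ : Cfg → Cfg} (h : BijOn φ S T) (E : Set Cfg) : Pr S (φ ⁻¹' E) = Pr T E := by
  rw [Pr, Pr, ← Ex_bij h]
  exact Ex_congr fun H _ => by by_cases h : φ H ∈ E <;> simp [h]

/-! ### Tower property -/

/-- Conditioning on a label. -/
theorem tower {ι : Type} (S : Set Cfg) (κ : Cfg → ι) (f : Cfg → ℝ) :
    Ex S f = Ex S fun H => Ex (S ∩ {H' | κ H' = κ H}) f := by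
  classical
  by_cases hS : S.Finite
  swap
  · simp [Ex_inf hS]
  rw [Ex_eq hS, Ex_eq hS]
  congr 1
  have m : ∀ H ∈ hS.toFinset, κ H ∈ hS.toFinset.image κ := fun H h => Finset.mem_image_of_mem κ h
  rw [← Finset.sum_fiberwise_of_maps_to m, ← Finset.sum_fiberwise_of_maps_to m]
  refine Finset.sum_congr rfl fun i hi => ?_
  obtain ⟨H₀, h0, rfl⟩ := Finset.mem_image.1 hi
  have g : Good (S ∩ {H' | κ H' = κ H₀}) := ⟨hS.inter_of_left _, H₀, hS.mem_toFinset.1 h0, rfl⟩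
  have e : hS.toFinset.filter (fun H => κ H = κ H₀) = g.1.toFinset := by
    ext H; simp
  rw [e, g.sum_eq, g.sum_eq]
  congr 1
  refine (Ex_const g _).symm.trans (Ex_congr fun H hH => ?_)
  rw [show κ H = κ H₀ from hH.2]

/-- Tower property with a factor determined by the label. -/
theorem tower_mul {ι : Type} (S : Set Cfg) (κ : Cfg → ι) (f g : Cfg → ℝ)
    (hg : ∀ H ∈ S, ∀ H' ∈ S, κ H' = κ H → g H' = g H) :
    Ex S (fun H => g H * f H) = Ex S fun H => g H * Ex (S ∩ {H' | κ H' = κ H}) f := by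
  rw [tower S κ]
  refine Ex_congr fun H hH => ?_
  rw [← Ex_mul_left]
  exact Ex_congr fun H' h' => by rw [hg H hH H' h'.1 h'.2]

/-- Tower property for a partition into cells. -/
theorem tower_cell (cell : Cfg → Set Cfg) (h1 : ∀ H ∈ S, H ∈ cell H ∧ cell H ⊆ S)
    (h2 : ∀ H ∈ S, ∀ H' ∈ cell H, cell H' = cell H) (f g : Cfg → ℝ)
    (hg : ∀ H ∈ S, ∀ H' ∈ cell H, g H' = g H) :
    Ex S (fun H => g H * f H) = Ex S fun H => g H * Ex (cell H) f := by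
  have e : ∀ H ∈ S, S ∩ {H' | cell H' = cell H} = cell H := fun H hH =>
    Subset.antisymm (fun H' h' => h'.2 ▸ (h1 H' h'.1).1)
      fun H' h' => ⟨(h1 H hH).2 h', h2 H hH H' h'⟩
  rw [tower_mul S cell f g fun H hH H' h' e' => hg H hH H' (e' ▸ (h1 H' h').1)]
  exact Ex_congr fun H hH => by rw [e H hH]

/-- The configurations of `S` agreeing with `H` on `R`. -/
def pin (S : Set Cfg) (R : Set V) (H : Cfg) : Set Cfg := {H' | H' ∈ S ∧ ∀ x ∈ R, H' x = H x}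

/-- `R` is a stopping set on `S`. -/
def Stop (S : Set Cfg) (R : Cfg → Set V) : Prop :=
  ∀ H ∈ S, ∀ H' ∈ S, (∀ x ∈ R H, H' x = H x) → R H' = R H

theorem tower_stop {R : Cfg → Set V} (hR : Stop S R) (f g : Cfg → ℝ)
    (hg : ∀ H ∈ S, ∀ H' ∈ S, (∀ x ∈ R H, H' x = H x) → g H' = g H) :
    Ex S (fun H => g H * f H) = Ex S fun H => g H * Ex (pin S (R H) H) f := by
  refine tower_cell (fun H => pin S (R H) H) (fun H h => ⟨⟨h, fun _ _ => rfl⟩, fun _ h => h.1⟩)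
    (fun H h H' h' => ?_) f g fun H h H' h' => hg H h H' h'.1 h'.2
  have e := hR H h H' h'.1 h'.2
  ext K
  simp only [pin, mem_ofPred_eq, e]
  exact and_congr_right fun _ => forall₂_congr fun x hx => by rw [h'.2 x hx]

/-- A bound on every cell inside an event gives a bound on the event. -/
theorem tower_le (cell : Cfg → Set Cfg) (h1 : ∀ H ∈ S, H ∈ cell H ∧ cell H ⊆ S)
    (h2 : ∀ H ∈ S, ∀ H' ∈ cell H, cell H' = cell H)
    (hE : ∀ H ∈ S, H ∈ E → cell H ⊆ E) (h : ∀ H ∈ S, H ∈ E → Ex (cell H) f ≤ c) :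
    Ex S (fun H => E.indicator 1 H * f H) ≤ c * Pr S E := by
  rw [tower_cell cell h1 h2 f (E.indicator 1), Pr, ← Ex_mul_left]
  · refine Ex_mono fun H hH => ?_
    by_cases h3 : H ∈ E
    · simpa [h3] using h H hH h3
    · simp [h3]
  · intro H hH H' h'
    by_cases h3 : H ∈ E
    · simp [h3, hE H hH h3 h']
    · have : H' ∉ E := fun h4 => h3 (hE H' ((h1 H hH).2 h') h4 (h2 H hH H' h' ▸ (h1 H hH).1))
      simp [h3, this]

theorem tower_ge (cell : Cfg → Set Cfg) (h1 : ∀ H ∈ S, H ∈ cell H ∧ cell H ⊆ S)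
    (h2 : ∀ H ∈ S, ∀ H' ∈ cell H, cell H' = cell H)
    (hE : ∀ H ∈ S, H ∈ E → cell H ⊆ E) (h : ∀ H ∈ S, H ∈ E → c ≤ Ex (cell H) f) :
    c * Pr S E ≤ Ex S (fun H => E.indicator 1 H * f H) := by
  have := tower_le (f := fun H => -f H) (c := -c) cell h1 h2 hE fun H hH h3 => by
    rw [Ex_neg]; exact neg_le_neg (h H hH h3)
  simp only [mul_neg, Ex_neg] at this
  linarith

theorem Pr_tower_le (cell : Cfg → Set Cfg) (h1 : ∀ H ∈ S, H ∈ cell H ∧ cell H ⊆ S)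
    (h2 : ∀ H ∈ S, ∀ H' ∈ cell H, cell H' = cell H)
    (hE : ∀ H ∈ S, H ∈ E → cell H ⊆ E) (h : ∀ H ∈ S, H ∈ E → Pr (cell H) E' ≤ c) :
    Pr S (E ∩ E') ≤ c * Pr S E := by
  rw [Pr, Ex_congr fun H _ => ind_inter E E' H]
  exact tower_le cell h1 h2 hE h

theorem Pr_tower_ge (cell : Cfg → Set Cfg) (h1 : ∀ H ∈ S, H ∈ cell H ∧ cell H ⊆ S)
    (h2 : ∀ H ∈ S, ∀ H' ∈ cell H, cell H' = cell H)
    (hE : ∀ H ∈ S, H ∈ E → cell H ⊆ E) (h : ∀ H ∈ S, H ∈ E → c ≤ Pr (cell H) E') :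
    c * Pr S E ≤ Pr S (E ∩ E') := by
  rw [Pr.eq_1 S (E ∩ E'), Ex_congr fun H _ => ind_inter E E' H]
  exact tower_ge cell h1 h2 hE h

end Vale.Agent.P153
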